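import Mathlib.Analysis.SpecialFunctions.Exponential
import Mathlib.Analysis.Calculus.InverseFunctionTheorem.ContDiff
import Mathlib.Analysis.Complex.CauchyIntegral
import Mathlib.Analysis.Normed.Ring.Units
import Mathlib.Analysis.Matrix.Normed

/-! P272 / FR: holomorphic invertible functions on a disc are approximated by entire invertible
functions (products of exponentials of polynomials), in a complete normed algebra. -/

set_option linter.unusedSectionVars false

open Set Metric Filter Topology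

noncomputable section

namespace Vale.Agent.P272.FR

variable {E : Type*} [NormedRing E] [NormedAlgebra ℂ E] [CompleteSpace E]

lemma exp_cont : Continuous (NormedSpace.exp : E → E) := by
  let _ : NormedAlgebra ℚ E := NormedAlgebra.restrictScalars ℚ ℂ E
  exact NormedSpace.exp_continuous

lemma exp_mul_exp_neg (x : E) : NormedSpace.exp x * NormedSpace.exp (-x) = 1 := by
  let _ : NormedAlgebra ℚ E := NormedAlgebra.restrictScalars ℚ ℂ E
  rw [← NormedSpace.exp_add_of_commute (Commute.refl x).neg_right, add_neg_cancel,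
    NormedSpace.exp_zero]

lemma exp_neg_mul_exp (x : E) : NormedSpace.exp (-x) * NormedSpace.exp x = 1 := by
  let _ : NormedAlgebra ℚ E := NormedAlgebra.restrictScalars ℚ ℂ E
  rw [← NormedSpace.exp_add_of_commute (Commute.refl x).neg_left, neg_add_cancel,
    NormedSpace.exp_zero]

/-- a local logarithm at `1` -/
lemma exists_log : ∃ δ > 0, ∃ lg : E → E, ∀ y ∈ ball (1 : E) δ,
    NormedSpace.exp (lg y) = y ∧ DifferentiableAt ℂ lg y := by
  have hc : ContDiffAt ℂ 1 (NormedSpace.exp : E → E) 0 :=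
    (NormedSpace.exp_analytic (𝕂 := ℂ) (0 : E)).contDiffAt
  have hd : HasFDerivAt (NormedSpace.exp : E → E)
      ((ContinuousLinearEquiv.refl ℂ E : E ≃L[ℂ] E) : E →L[ℂ] E) 0 :=
    hasFDerivAt_exp_zero (𝕂 := ℂ) (𝔸 := E)
  have h1 : ContDiffAt ℂ 1 (hc.localInverse hd one_ne_zero) (NormedSpace.exp (0 : E)) :=
    hc.to_localInverse hd one_ne_zero
  have h2 : ∀ᶠ y in 𝓝 (NormedSpace.exp (0 : E)),
      NormedSpace.exp (hc.localInverse hd one_ne_zero y) = y :=
    (hc.hasStrictFDerivAt' hd one_ne_zero).eventually_right_inverse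
  rw [NormedSpace.exp_zero] at h1 h2
  have h3 : ∀ᶠ y in 𝓝 (1 : E), DifferentiableAt ℂ (hc.localInverse hd one_ne_zero) y := by
    filter_upwards [h1.eventually (by simp)] with y hy
    exact hy.differentiableAt (by simp)
  obtain ⟨δ, hδ, hb⟩ := Metric.eventually_nhds_iff_ball.1 (h2.and h3)
  exact ⟨δ, hδ, _, hb⟩

/-- `H` is approximated on `closedBall c r` by entire invertible functions -/
def App (c : ℂ) (r : ℝ) (H : ℂ → E) : Prop :=
  ∀ ε > 0, ∃ G G' : ℂ → E, Differentiable ℂ G ∧ Differentiable ℂ G' ∧ (∀ z, G z * G' z = 1) ∧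
    (∀ z, G' z * G z = 1) ∧ ∀ z ∈ closedBall c r, ‖H z * G' z - 1‖ ≤ ε

lemma App.const {c : ℂ} {r : ℝ} {u : E} (hu : IsUnit u) : App c r fun _ => u := by
  intro ε hε
  obtain ⟨u, rfl⟩ := hu
  exact ⟨fun _ => (u : E), fun _ => ((u⁻¹ : Eˣ) : E), differentiable_const _, differentiable_const _,
    fun _ => u.mul_inv, fun _ => u.inv_mul, fun z _ => by simp [hε.le]⟩

lemma App.congr {c : ℂ} {r : ℝ} {H H' : ℂ → E} (h : App c r H)
    (h' : ∀ z ∈ closedBall c r, H' z = H z) : App c r H' := by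
  intro ε hε
  obtain ⟨G, G', h1, h2, h3, h4, h5⟩ := h ε hε
  exact ⟨G, G', h1, h2, h3, h4, fun z hz => by rw [h' z hz]; exact h5 z hz⟩

/-- polynomial approximation on smaller balls -/
lemma exists_entire {c : ℂ} {r r' : ℝ} (hr : 0 < r) (hr' : r < r') {L : ℂ → E}
    (hL : DifferentiableOn ℂ L (ball c r')) {ε : ℝ} (hε : 0 < ε) :
    ∃ P : ℂ → E, Differentiable ℂ P ∧ ∀ z ∈ closedBall c r, ‖P z - L z‖ < ε := by
  obtain ⟨s, hs, hs'⟩ := exists_between hr'
  obtain ⟨t, ht, ht'⟩ := exists_between hs'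
  lift s to NNReal using (hr.trans hs).le
  lift t to NNReal using (hr.trans (hs.trans ht)).le
  have h1 : DifferentiableOn ℂ L (closedBall c t) := hL.mono (closedBall_subset_ball ht')
  have h2 := h1.hasFPowerSeriesOnBall (by
    have : (0 : ℝ) < t := hr.trans (hs.trans ht)
    exact_mod_cast this)
  have hst : (s : ENNReal) < t := by
    have : s < t := by exact_mod_cast ht
    exact_mod_cast this
  have h3 := h2.tendstoUniformlyOn' hst
  obtain ⟨N, hN⟩ := (Metric.tendstoUniformlyOn_iff.1 h3 ε hε).exists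
  refine ⟨fun z => (cauchyPowerSeries L c t).partialSum N (z - c), ?_, fun z hz => ?_⟩
  · unfold FormalMultilinearSeries.partialSum
    simp only [FormalMultilinearSeries.apply_eq_pow_smul_coeff]
    fun_prop
  · have := hN z (closedBall_subset_ball hs hz)
    rw [dist_comm, dist_eq_norm] at this
    exact this

lemma exp_near {K : Set E} (hK : IsCompact K) {ε : ℝ} (hε : 0 < ε) : ∃ δ > 0, ∀ x ∈ K, ∀ y,
    ‖y - x‖ < δ → ‖NormedSpace.exp x * NormedSpace.exp (-y) - 1‖ < ε := by
  have hec : Continuous (NormedSpace.exp : E → E) := exp_cont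
  have hc : Continuous fun p : E × E => ‖NormedSpace.exp p.1 * NormedSpace.exp (-p.2) - 1‖ :=
    (((hec.comp continuous_fst).mul (hec.comp continuous_snd.neg)).sub continuous_const).norm
  have hC : IsCompact ((fun x : E => (x, x)) '' K) := hK.image (continuous_id.prodMk continuous_id)
  obtain ⟨δ, hδ, hsub⟩ := hC.exists_thickening_subset_open
    (isOpen_lt hc continuous_const (g := fun _ => ε)) (by
      rintro _ ⟨x, hx, rfl⟩
      show ‖NormedSpace.exp x * NormedSpace.exp (-x) - 1‖ < ε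
      rw [exp_mul_exp_neg, sub_self, norm_zero]
      exact hε)
  refine ⟨δ, hδ, fun x hx y hy => ?_⟩
  refine hsub (a := (x, y)) ?_
  rw [mem_thickening_iff]
  refine ⟨(x, x), ⟨x, hx, rfl⟩, ?_⟩
  rw [Prod.dist_eq, dist_self, dist_eq_norm]
  exact max_lt hδ hy

/-- multiplication by `exp L` -/
lemma App.mul_exp {c : ℂ} {r r' : ℝ} (hr : 0 < r) (hr' : r < r') {H : ℂ → E} (h : App c r H)
    (hc : ContinuousOn H (closedBall c r)) {L : ℂ → E} (hL : DifferentiableOn ℂ L (ball c r')) :
    App c r fun z => H z * NormedSpace.exp (L z) := by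
  intro ε hε
  obtain ⟨G, G', h1, h2, h3, h4, h5⟩ := h (ε / 2) (by positivity)
  have hKc := isCompact_closedBall c r
  obtain ⟨A, hA⟩ := hKc.exists_bound_of_continuousOn hc
  obtain ⟨B, hB⟩ := hKc.exists_bound_of_continuousOn h2.continuous.continuousOn
  have hA0 : 0 ≤ A := (norm_nonneg _).trans (hA c (mem_closedBall_self hr.le))
  have hB0 : 0 ≤ B := (norm_nonneg _).trans (hB c (mem_closedBall_self hr.le))
  set η : ℝ := ε / 2 / (A * B + 1) with hη
  have hη0 : 0 < η := by positivity
  have hLc : ContinuousOn L (closedBall c r) :=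
    hL.continuousOn.mono (closedBall_subset_ball hr')
  obtain ⟨δ, hδ, hexp⟩ := exp_near (hKc.image_of_continuousOn hLc) hη0
  obtain ⟨P, hP, hPL⟩ := exists_entire hr hr' hL hδ
  have hexpd : ∀ Q : ℂ → E, Differentiable ℂ Q → Differentiable ℂ fun z => NormedSpace.exp (Q z) :=
    fun Q hQ z => ((NormedSpace.exp_analytic (𝕂 := ℂ) (Q z)).differentiableAt).comp z (hQ z)
  have hcan : ∀ x : E, NormedSpace.exp x * NormedSpace.exp (-x) = 1 := exp_mul_exp_neg
  have hcan' : ∀ x : E, NormedSpace.exp (-x) * NormedSpace.exp x = 1 := exp_neg_mul_exp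
  refine ⟨fun z => G z * NormedSpace.exp (P z), fun z => NormedSpace.exp (-P z) * G' z,
    h1.mul (hexpd P hP), (hexpd _ hP.neg).mul h2, fun z => ?_, fun z => ?_, fun z hz => ?_⟩
  · rw [mul_assoc, ← mul_assoc (NormedSpace.exp (P z)), hcan, one_mul, h3]
  · rw [mul_assoc, ← mul_assoc (G' z), h4, one_mul, hcan']
  · have e1 := (hexp (L z) ⟨z, hz, rfl⟩ (P z) (hPL z hz)).le
    set e : E := NormedSpace.exp (L z) * NormedSpace.exp (-P z) - 1 with he
    have e2 : H z * NormedSpace.exp (L z) * (NormedSpace.exp (-P z) * G' z) - 1 =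
        (H z * G' z - 1) + H z * (e * G' z) := by
      rw [he, sub_mul, one_mul, mul_sub]
      simp only [mul_assoc]
      abel
    rw [e2]
    have e3 : ‖H z * (e * G' z)‖ ≤ A * (η * B) := by
      refine (norm_mul_le _ _).trans (mul_le_mul (hA z hz) ?_ (norm_nonneg _) hA0)
      exact (norm_mul_le _ _).trans (mul_le_mul e1 (hB z hz) (norm_nonneg _) hη0.le)
    have e4 : A * (η * B) ≤ ε / 2 := by
      have : A * (η * B) = ε / 2 * (A * B / (A * B + 1)) := by
        rw [hη]; field_simp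
      rw [this]
      have h6 : A * B / (A * B + 1) ≤ 1 := by
        rw [div_le_one (by positivity)]; linarith
      nlinarith
    calc ‖(H z * G' z - 1) + H z * (e * G' z)‖ ≤ ‖H z * G' z - 1‖ + ‖H z * (e * G' z)‖ :=
          norm_add_le _ _
      _ ≤ ε / 2 + ε / 2 := add_le_add (h5 z hz) (e3.trans e4)
      _ = ε := by ring

lemma unif_near {S : Set ℂ} (hS : IsCompact S) {P : ℂ → ℂ → Prop}
    (h : ∀ z ∈ S, ∀ᶠ p : ℂ × ℂ in 𝓝[S ×ˢ S] (z, z), P p.1 p.2) :
    ∃ δ > 0, ∀ w ∈ S, ∀ w' ∈ S, dist w' w < δ → P w w' := by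
  have h1 : ∀ z ∈ S, ∃ ε > 0, ∀ w w', dist w z < ε → dist w' z < ε → w ∈ S → w' ∈ S → P w w' := by
    intro z hz
    have h2 := eventually_nhdsWithin_iff.1 (h z hz)
    obtain ⟨ε, hε, hb⟩ := Metric.eventually_nhds_iff.1 h2
    refine ⟨ε, hε, fun w w' hw hw' hwS hw'S => ?_⟩
    exact hb (y := (w, w')) (by rw [Prod.dist_eq]; exact max_lt hw hw') ⟨hwS, hw'S⟩
  choose! ε hε hP using h1
  obtain ⟨δ, hδ, hδ'⟩ := lebesgue_number_lemma_of_metric (c := fun z : S => ball (z : ℂ) (ε z)) hS
    (fun z => isOpen_ball) (fun z hz => mem_iUnion.2 ⟨⟨z, hz⟩, mem_ball_self (hε z hz)⟩)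
  refine ⟨δ, hδ, fun w hw w' hw' hd => ?_⟩
  obtain ⟨z, hz⟩ := hδ' w hw
  exact hP z z.2 w w' (hz (mem_ball_self hδ)) (hz hd) hw hw'

/-- **approximation by entire invertible functions** -/
theorem exp_approx {c : ℂ} {r R : ℝ} (hr : 0 < r) (hR : r < R) {H : ℂ → E}
    (hH : DifferentiableOn ℂ H (ball c R)) (hu : ∀ z ∈ ball c R, IsUnit (H z)) {ε : ℝ}
    (hε : 0 < ε) : ∃ G G' : ℂ → E, Differentiable ℂ G ∧ Differentiable ℂ G' ∧
      (∀ z, G z * G' z = 1) ∧ (∀ z, G' z * G z = 1) ∧
      ∀ z ∈ closedBall c r, ‖H z * G' z - 1‖ ≤ ε := by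
  obtain ⟨r', hrr', hr'R⟩ := exists_between hR
  have hr'0 : 0 < r' := hr.trans hrr'
  obtain ⟨δ, hδ, lg, hlg⟩ := exists_log (E := E)
  set K : Set ℂ := closedBall c r' with hK
  have hKR : K ⊆ ball c R := closedBall_subset_ball hr'R
  have hHc : ContinuousOn H K := hH.continuousOn.mono hKR
  have hinv : ∀ z ∈ K, Ring.inverse (H z) * H z = 1 := fun z hz =>
    Ring.inverse_mul_cancel _ (hu z (hKR hz))
  have hstep : ∃ δ' > 0, ∀ w ∈ K, ∀ w' ∈ K, dist w' w < δ' →
      Ring.inverse (H w) * H w' ∈ ball (1 : E) δ := by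
    refine unif_near (isCompact_closedBall c r') fun z hz => ?_
    have h1 : ContinuousWithinAt (fun p : ℂ × ℂ => Ring.inverse (H p.1) * H p.2) (K ×ˢ K) (z, z) := by
      have a1 : ContinuousWithinAt (fun p : ℂ × ℂ => H p.1) (K ×ˢ K) (z, z) :=
        ContinuousWithinAt.comp (f := fun p : ℂ × ℂ => p.1) (g := H) (t := K) (hHc z hz)
          (continuous_fst.continuousWithinAt) (fun p hp => hp.1)
      have a2 : ContinuousWithinAt (fun p : ℂ × ℂ => H p.2) (K ×ˢ K) (z, z) :=
        ContinuousWithinAt.comp (f := fun p : ℂ × ℂ => p.2) (g := H) (t := K) (hHc z hz)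
          (continuous_snd.continuousWithinAt) (fun p hp => hp.2)
      obtain ⟨u, hu'⟩ := hu z (hKR hz)
      have a3 : ContinuousAt Ring.inverse (H z) := by
        rw [← hu']; exact NormedRing.inverse_continuousAt u
      exact (ContinuousAt.comp_continuousWithinAt (f := fun p : ℂ × ℂ => H p.1)
        (g := Ring.inverse) a3 a1).mul a2
    refine h1.eventually (p := fun y => y ∈ ball (1 : E) δ) ?_
    show ∀ᶠ y in 𝓝 (Ring.inverse (H z) * H z), y ∈ ball (1 : E) δ
    rw [hinv z hz]
    exact ball_mem_nhds _ hδ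
  obtain ⟨δ', hδ', hst⟩ := hstep
  obtain ⟨N, hN⟩ := exists_nat_gt (r' / δ')
  have hN0 : (0 : ℝ) < N := lt_trans (by positivity) hN
  -- points of the homothety
  set q : ℕ → ℂ → ℂ := fun k z => c + ((k : ℝ) / N : ℝ) * (z - c) with hq
  have hqd : ∀ k, Differentiable ℂ (q k) := fun k => by
    simp only [hq]; fun_prop
  have hqn : ∀ k z, ‖q k z - c‖ = (k : ℝ) / N * ‖z - c‖ := by
    intro k z
    simp only [hq, add_sub_cancel_left, norm_mul, Complex.norm_real]
    rw [Real.norm_of_nonneg (by positivity)]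
  have hqK : ∀ k, k ≤ N → ∀ ρ : ℝ, ∀ z, ‖z - c‖ ≤ ρ → ‖q k z - c‖ ≤ ρ := by
    intro k hk ρ z hz
    rw [hqn]
    have h1 : (k : ℝ) / N ≤ 1 := by
      rw [div_le_one hN0]; exact_mod_cast hk
    have h2 : 0 ≤ (k : ℝ) / N := by positivity
    nlinarith [norm_nonneg (z - c)]
  have hqKm : ∀ k, k ≤ N → ∀ z ∈ K, q k z ∈ K := fun k hk z hz => by
    rw [hK, mem_closedBall, dist_eq_norm] at hz ⊢
    exact hqK k hk r' z hz
  have hqdist : ∀ k, ∀ z ∈ K, dist (q (k + 1) z) (q k z) < δ' := by
    intro k z hz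
    rw [hK, mem_closedBall, dist_eq_norm] at hz
    have h1 : q (k + 1) z - q k z = ((1 : ℝ) / N : ℝ) * (z - c) := by
      simp only [hq]; push_cast; ring
    rw [dist_eq_norm, h1, norm_mul, Complex.norm_real, Real.norm_of_nonneg (by positivity)]
    rw [div_lt_iff₀ hδ'] at hN
    calc (1 : ℝ) / N * ‖z - c‖ ≤ 1 / N * r' := by gcongr
      _ = r' / N := by ring
      _ < δ' := by rw [div_lt_iff₀ hN0]; linarith
  have main : ∀ k, k ≤ N → App c r fun z => H (q k z) := by
    intro k
    induction k with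
    | zero =>
      intro _
      have : (fun z => H (q 0 z)) = fun _ => H c := by
        funext z; simp [hq]
      rw [this]
      exact App.const (hu c (mem_ball_self (hr'0.trans hr'R)))
    | succ k ih =>
      intro hk
      have hk' : k ≤ N := by omega
      set L : ℂ → E := fun z => lg (Ring.inverse (H (q k z)) * H (q (k + 1) z)) with hLdef
      have hmem : ∀ z ∈ K, Ring.inverse (H (q k z)) * H (q (k + 1) z) ∈ ball (1 : E) δ :=
        fun z hz => hst _ (hqKm k hk' z hz) _ (hqKm (k + 1) hk z hz) (hqdist k z hz)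
      have hL : DifferentiableOn ℂ L (ball c r') := by
        intro z hz
        have hzK : z ∈ K := ball_subset_closedBall hz
        have hd : ∀ j, j ≤ N → DifferentiableAt ℂ (fun z => H (q j z)) z := fun j hj =>
          ((hH.differentiableAt (isOpen_ball.mem_nhds (hKR (hqKm j hj z hzK)))).comp z
            (hqd j z))
        have h1 : DifferentiableAt ℂ (fun z => Ring.inverse (H (q k z)) * H (q (k + 1) z)) z := by
          refine DifferentiableAt.mul ?_ (hd (k + 1) hk)
          exact DifferentiableAt.comp (g := Ring.inverse) (f := fun z => H (q k z)) z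
            (differentiableAt_inverse (hu _ (hKR (hqKm k hk' z hzK)))) (hd k hk')
        exact (DifferentiableAt.comp (g := lg)
          (f := fun z => Ring.inverse (H (q k z)) * H (q (k + 1) z)) z (hlg _ (hmem z hzK)).2
          h1).differentiableWithinAt
      have hcont : ContinuousOn (fun z => H (q k z)) (closedBall c r) := by
        refine hHc.comp (hqd k).continuous.continuousOn fun z hz => ?_
        exact hqKm k hk' z (closedBall_subset_closedBall hrr'.le hz)
      refine (App.mul_exp hr hrr' (ih hk') hcont hL).congr fun z hz => ?_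
      have hzK : z ∈ K := closedBall_subset_closedBall hrr'.le hz
      simp only [hLdef]
      rw [(hlg _ (hmem z hzK)).1, ← mul_assoc,
        Ring.mul_inverse_cancel _ (hu _ (hKR (hqKm k hk' z hzK))), one_mul]
  have hfin : App c r H := by
    refine (main N le_rfl).congr fun z _ => ?_
    have : q N z = z := by
      simp only [hq]
      rw [div_self hN0.ne']
      push_cast
      ring
    rw [this]
  exact hfin ε hε

/-! ### matrices -/

section matrix
open scoped Matrix.Norms.Operator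

variable {ι : Type*} [Fintype ι] [DecidableEq ι]

lemma matrix_eq_sum (M : Matrix ι ι ℂ) :
    M = ∑ i, ∑ j, M i j • Matrix.single i j (1 : ℂ) := by
  conv_lhs => rw [Matrix.matrix_eq_sum_single M]
  refine Finset.sum_congr rfl fun i _ => Finset.sum_congr rfl fun j _ => ?_
  rw [Matrix.smul_single, smul_eq_mul, mul_one]

lemma differentiableOn_matrix {H : ℂ → Matrix ι ι ℂ} {U : Set ℂ}
    (h : ∀ i j, DifferentiableOn ℂ (fun z => H z i j) U) : DifferentiableOn ℂ H U := by
  have h1 : H = fun z => ∑ i, ∑ j, H z i j • Matrix.single i j (1 : ℂ) := by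
    funext z; exact matrix_eq_sum (H z)
  rw [h1]
  refine DifferentiableOn.fun_sum fun i _ => DifferentiableOn.fun_sum fun j _ => ?_
  exact (h i j).smul_const _

/-- a matrix entry as a continuous linear form -/
def entryL (i j : ι) : Matrix ι ι ℂ →L[ℂ] ℂ :=
  LinearMap.toContinuousLinearMap
    { toFun := fun M => M i j, map_add' := fun _ _ => rfl, map_smul' := fun _ _ => rfl }

lemma entryL_apply (i j : ι) (M : Matrix ι ι ℂ) : entryL i j M = M i j := rfl

lemma differentiable_entry {H : ℂ → Matrix ι ι ℂ} (h : Differentiable ℂ H) (i j : ι) :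
    Differentiable ℂ fun z => H z i j :=
  (entryL i j).differentiable.comp h

theorem exp_approx_matrix {c : ℂ} {r R : ℝ} (hr : 0 < r) (hR : r < R) {H : ℂ → Matrix ι ι ℂ}
    (hH : ∀ i j, DifferentiableOn ℂ (fun z => H z i j) (ball c R))
    (hu : ∀ z ∈ ball c R, (H z).det ≠ 0) {ε : ℝ} (hε : 0 < ε) :
    ∃ G G' : ℂ → Matrix ι ι ℂ, (∀ i j, Differentiable ℂ fun z => G z i j) ∧
      (∀ i j, Differentiable ℂ fun z => G' z i j) ∧
      (∀ z, G z * G' z = 1) ∧ (∀ z, G' z * G z = 1) ∧
      ∀ z ∈ closedBall c r, ‖H z * G' z - 1‖ ≤ ε := by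
  obtain ⟨G, G', h1, h2, h3, h4, h5⟩ := exp_approx hr hR (differentiableOn_matrix hH)
    (fun z hz => (Matrix.isUnit_iff_isUnit_det _).2 (isUnit_iff_ne_zero.2 (hu z hz))) hε
  exact ⟨G, G', differentiable_entry h1, differentiable_entry h2, h3, h4, h5⟩

end matrix

end Vale.Agent.P272.FR
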