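import Vale.Agent.P272.FR.Patch
import Vale.Agent.P272.GEO.Defs

/-!
# The gauge theorem (FRAME) for matrices on the closed disc
-/

open MeasureTheory Set Metric Filter Topology
open scoped ContDiff

set_option linter.unusedSectionVars false

namespace Vale.Agent.P272.FR

open Vale.Agent.P272.CT

section

variable {E : Type*} [NormedAddCommGroup E] [NormedSpace ℂ E]

theorem dbar_comp_mul {η : ℂ → ℂ} (hη : Differentiable ℝ η) (z : ℂ) :
    dbar (fun w => η (3 * w)) z = 3 * dbar η (3 * z) := by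
  have h1 : HasFDerivAt (𝕜 := ℝ) (fun w : ℂ => (3 : ℂ) * w)
      ((3 : ℂ) • ContinuousLinearMap.id ℝ ℂ) z :=
    (hasFDerivAt_id (𝕜 := ℝ) z).const_mul (3 : ℂ)
  have h2 : HasFDerivAt (fun w => η (3 * w)) _ z := ((hη (3 * z)).hasFDerivAt).comp z h1
  unfold dbar
  rw [h2.fderiv]
  have h3 : ∀ x : ℂ, (fderiv ℝ η (3 * z)) ((3 : ℂ) * x) = 3 * fderiv ℝ η (3 * z) x := by
    intro x
    have : (3 : ℂ) * x = (3 : ℝ) • x := by simp
    rw [this, map_smul]
    simp
  simp only [ContinuousLinearMap.comp_apply, smul_apply,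
    ContinuousLinearMap.id_apply, smul_eq_mul]
  rw [h3, h3]
  ring

/-- scaling of the weak equation -/
theorem wdb_scale {v q : ℂ → E} (h : WDb univ v q) :
    WDb univ (fun z => v (z / 3)) fun z => (1 / 3 : ℂ) • q (z / 3) := by
  intro η hη hc _
  have h3 : (3 : ℂ) ≠ 0 := by norm_num
  have hc' : HasCompactSupport (fun w : ℂ => η (3 * w)) :=
    hc.comp_homeomorph (Homeomorph.mulLeft₀ 3 h3)
  have h4 := h (fun w => η (3 * w)) (hη.comp (contDiff_const.mul contDiff_id)) hc'
    (subset_univ _)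
  have e1 : ∀ f : ℂ → E, ∫ z, f z = (9 : ℝ) • ∫ w, f (3 * w) := by
    intro f
    have h5 := Measure.integral_comp_smul (volume : Measure ℂ) f (3 : ℝ)
    rw [Complex.finrank_real_complex] at h5
    have h6 : (fun x : ℂ => f ((3 : ℝ) • x)) = fun w => f (3 * w) := by
      ext w; simp
    rw [h6] at h5
    rw [h5, smul_smul, abs_of_pos (by norm_num)]
    norm_num
  have e2 : ∀ w : ℂ, (3 * w) / 3 = w := fun w => by field_simp
  have e3 : (fun w : ℂ => dbar η (3 * w) • v (3 * w / 3)) =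
      fun w => (1 / 3 : ℂ) • (dbar (fun w => η (3 * w)) w • v w) := by
    ext w
    rw [dbar_comp_mul (hη.differentiable (by simp)), e2, smul_smul]
    congr 1
    ring
  have e4 : (fun w : ℂ => η (3 * w) • (1 / 3 : ℂ) • q (3 * w / 3)) =
      fun w => (1 / 3 : ℂ) • (η (3 * w) • q w) := by
    ext w
    rw [e2, smul_comm]
  have e5 := e1 fun z => dbar η z • v (z / 3)
  have e6 := e1 fun z => η z • (1 / 3 : ℂ) • q (z / 3)
  beta_reduce at e5 e6 ⊢
  rw [e5, e6, e3, e4, integral_smul, integral_smul, h4]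
  simp

end

/-- the radial extension of a function on the closed disc, cut off -/
noncomputable def ext {E : Type*} [AddCommMonoid E] [Module ℂ E] (a : ℂ → E) (z : ℂ) : E :=
  ((cut 0 1 2 z : ℝ) : ℂ) • a (z / ((max 1 ‖z‖ : ℝ) : ℂ))

theorem proj_mem (z : ℂ) : z / ((max 1 ‖z‖ : ℝ) : ℂ) ∈ closedBall (0 : ℂ) 1 := by
  rw [mem_closedBall_zero_iff, norm_div, Complex.norm_real, Real.norm_eq_abs,
    abs_of_pos (lt_max_of_lt_left one_pos)]
  exact div_le_one_of_le₀ (le_max_right _ _) (le_max_of_le_left zero_le_one)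

theorem continuous_proj : Continuous fun z : ℂ => z / ((max 1 ‖z‖ : ℝ) : ℂ) := by
  refine continuous_id.div (by fun_prop) fun z => ?_
  rw [Complex.ofReal_ne_zero]
  exact (lt_max_of_lt_left one_pos).ne'

theorem continuous_ext {E : Type*} [NormedAddCommGroup E] [NormedSpace ℂ E] {a : ℂ → E}
    (ha : ContinuousOn a (closedBall 0 1)) : Continuous (ext a) := by
  unfold ext
  refine (Complex.continuous_ofReal.comp (continuous_cut _ _ _)).smul ?_
  exact ha.comp_continuous continuous_proj proj_mem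

theorem ext_eq {E : Type*} [AddCommMonoid E] [Module ℂ E] {a : ℂ → E} {z : ℂ}
    (hz : z ∈ closedBall (0 : ℂ) 1) : ext a z = a z := by
  rw [mem_closedBall_zero_iff] at hz
  unfold ext
  rw [cut_one one_lt_two (by simpa using hz), max_eq_left hz]
  simp

theorem ext_zero {E : Type*} [AddCommMonoid E] [Module ℂ E] {a : ℂ → E} {z : ℂ}
    (hz : 2 ≤ ‖z‖) : ext a z = 0 := by
  unfold ext
  rw [cut_zero one_lt_two (by simpa using hz)]
  simp

/-- FRAME on the closed disc in a Banach algebra -/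
theorem exists_gauge {𝔸 : Type*} [NormedRing 𝔸] [NormedAlgebra ℂ 𝔸] [CompleteSpace 𝔸]
    (h1 : ‖(1 : 𝔸)‖ ≤ 1) {a : ℂ → 𝔸} (ha : ContinuousOn a (closedBall 0 1)) :
    ∃ g : ℂ → 𝔸, Continuous g ∧ (∀ z, IsUnit (g z)) ∧
      WDb (ball 0 1) g fun z => -(a z * g z) := by
  obtain ⟨g, hgc, hgu, hgw⟩ := exists_sol h1 (a := fun z => (3 : ℂ) • ext a (3 * z))
    (((continuous_ext ha).comp (continuous_const.mul continuous_id)).const_smul (3 : ℂ))
    (fun w hw => by
      rw [mem_ball_zero_iff, not_lt] at hw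
      rw [ext_zero (by rw [norm_mul]; norm_num; linarith), smul_zero])
  refine ⟨fun z => g (z / 3), hgc.comp (by fun_prop), fun z => hgu _, ?_⟩
  refine ((wdb_scale hgw).mono (subset_univ _)).congr (fun _ _ => rfl) fun z hz => ?_
  have e : (3 : ℂ) * (z / 3) = z := by field_simp
  simp only [e]
  rw [ext_eq (ball_subset_closedBall hz), smul_mul_assoc, ← smul_neg, smul_smul]
  norm_num

/-- matrices as continuous linear maps -/
noncomputable def mEquiv (n : ℕ) :
    Matrix (Fin n) (Fin n) ℂ ≃ₐ[ℂ] ((Fin n → ℂ) →L[ℂ] (Fin n → ℂ)) :=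
  Matrix.toLinAlgEquiv'.trans (Module.End.toContinuousLinearMap (𝕜 := ℂ) (Fin n → ℂ))

theorem gaugeStmt : GEO.GaugeStmt := by
  intro n a ha
  have hφ : Continuous (mEquiv n) := by
    have := LinearMap.continuous_of_finiteDimensional
      ((mEquiv n).toLinearEquiv : Matrix (Fin n) (Fin n) ℂ →ₗ[ℂ] ((Fin n → ℂ) →L[ℂ] (Fin n → ℂ)))
    exact this
  have h1 : ‖(1 : (Fin n → ℂ) →L[ℂ] (Fin n → ℂ))‖ ≤ 1 := ContinuousLinearMap.norm_id_le
  obtain ⟨G, hGc, hGu, hGw⟩ := exists_gauge h1 (a := fun z => mEquiv n (a z))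
    (hφ.comp_continuousOn ha)
  refine ⟨fun z => (mEquiv n).symm (G z), ?_, ?_, ?_⟩
  · have hs : Continuous ((mEquiv n).symm) := by
      have := LinearMap.continuous_of_finiteDimensional
        ((mEquiv n).symm.toLinearEquiv : ((Fin n → ℂ) →L[ℂ] (Fin n → ℂ)) →ₗ[ℂ]
          Matrix (Fin n) (Fin n) ℂ)
      exact this
    exact (hs.comp hGc).continuousOn
  · intro z _
    have : IsUnit ((mEquiv n).symm (G z)) := (hGu z).map (mEquiv n).symm
    exact ((Matrix.isUnit_iff_isUnit_det _).1 this).ne_zero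
  · intro i j
    -- the entry functional
    let L : ((Fin n → ℂ) →L[ℂ] (Fin n → ℂ)) →ₗ[ℂ] ℂ :=
      (Matrix.entryLinearMap ℂ ℂ i j).comp
        ((mEquiv n).symm.toLinearEquiv : ((Fin n → ℂ) →L[ℂ] (Fin n → ℂ)) →ₗ[ℂ]
          Matrix (Fin n) (Fin n) ℂ)
    have hL : ∀ T, LinearMap.toContinuousLinearMap L T = (mEquiv n).symm T i j := fun T => rfl
    have hac : ContinuousOn (fun z => mEquiv n (a z)) (ball 0 1) :=
      (hφ.comp_continuousOn ha).mono ball_subset_closedBall
    have h2 := hGw.clm isOpen_ball hGc.continuousOn ((hac.mul hGc.continuousOn).neg)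
      (LinearMap.toContinuousLinearMap L)
    refine h2.congr (fun z _ => hL _) fun z _ => ?_
    have h3 : (mEquiv n).symm (-(mEquiv n (a z) * G z)) = -(a z * (mEquiv n).symm (G z)) := by
      rw [map_neg, map_mul, AlgEquiv.symm_apply_apply]
    have h4 : (LinearMap.toContinuousLinearMap L) (-(mEquiv n (a z) * G z)) =
        -((a z * (mEquiv n).symm (G z)) i j) := by
      rw [hL, h3]; rfl
    exact h4

end Vale.Agent.P272.FR
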