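import Vale.Agent.P272.FR.Small

/-!
# FRAME, patch by patch: the weak equation in a Banach algebra, and the Neumann lemma
-/

open MeasureTheory Set Metric Filter Topology
open scoped BoundedContinuousFunction

set_option linter.unusedSectionVars false

namespace Vale.Agent.P272.FR

open Vale.Agent.P272.CT

variable {𝔸 : Type*} [NormedRing 𝔸] [NormedAlgebra ℂ 𝔸] [CompleteSpace 𝔸]

/-- product rule in a Banach algebra -/
theorem wdb_mul {Ω : Set ℂ} (hΩ : IsOpen Ω) {v q w r : ℂ → 𝔸} (hv : ContinuousOn v Ω)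
    (hq : ContinuousOn q Ω) (hw : ContinuousOn w Ω) (hr : ContinuousOn r Ω)
    (h1 : WDb Ω v q) (h2 : WDb Ω w r) :
    WDb Ω (fun z => v z * w z) fun z => q z * w z + v z * r z := by
  have h3 := WDb.prodMk hΩ hv hq hw hr h1 h2
  have h4 := h3.comp_holo hΩ (hv.prodMk hw) (hq.prodMk hr) (W := univ) isOpen_univ
    (Φ := fun x : 𝔸 × 𝔸 => x.1 * x.2) (contDiff_fst.mul contDiff_snd).contDiffOn
    (fun _ _ => trivial)
  refine h4.congr (fun _ _ => rfl) fun z _ => ?_
  have h5 := (hasFDerivAt_fst (𝕜 := ℂ) (p := (v z, w z))).mul'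
    (hasFDerivAt_snd (𝕜 := ℂ) (p := (v z, w z)))
  have h6 : fderiv ℂ (fun x : 𝔸 × 𝔸 => x.1 * x.2) (v z, w z) = _ := h5.fderiv
  beta_reduce
  rw [h6]
  simp [add_comm]

/-- the inverse -/
theorem wdb_inv {Ω : Set ℂ} (hΩ : IsOpen Ω) {v q : ℂ → 𝔸} (hv : ContinuousOn v Ω)
    (hq : ContinuousOn q Ω) (h1 : WDb Ω v q) (hu : ∀ z ∈ Ω, IsUnit (v z)) :
    WDb Ω (fun z => Ring.inverse (v z))
      fun z => -(Ring.inverse (v z) * q z * Ring.inverse (v z)) := by
  have hW : IsOpen {x : 𝔸 | IsUnit x} := Units.isOpen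
  have h4 := h1.comp_holo hΩ hv hq hW (Φ := Ring.inverse) (fun x hx => by
    obtain ⟨u, rfl⟩ := hx
    exact (contDiffAt_ringInverse ℂ u).contDiffWithinAt) hu
  refine h4.congr (fun _ _ => rfl) fun z hz => ?_
  obtain ⟨u, hu'⟩ := hu z hz
  beta_reduce
  rw [← hu', (hasFDerivAt_ringInverse (𝕜 := ℂ) u).fderiv]
  simp

theorem continuous_inverse {v : ℂ → 𝔸} (hv : Continuous v) (hu : ∀ z, IsUnit (v z)) :
    Continuous fun z => Ring.inverse (v z) := by
  rw [continuous_iff_continuousAt]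
  intro z
  obtain ⟨u, hu'⟩ := hu z
  have h : ContinuousAt Ring.inverse (v z) := by
    rw [← hu']; exact NormedRing.inverse_continuousAt u
  exact ContinuousAt.comp h hv.continuousAt

/-- a solution of `∂̄g = -a g` with invertible values -/
def Sol (a g : ℂ → 𝔸) : Prop :=
  Continuous g ∧ (∀ z, IsUnit (g z)) ∧ WDb univ g fun z => -(a z * g z)

theorem isUnit_of_near {x : 𝔸} (h : ‖x - 1‖ < 1) : IsUnit x := by
  have h1 : ‖1 - x‖ < 1 := by rwa [norm_sub_rev]
  have h2 : x = ((Units.oneSub (1 - x) h1 : 𝔸ˣ) : 𝔸) := by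
    rw [Units.val_oneSub]; abel
  rw [h2]
  exact Units.isUnit _

/-- NEUMANN LEMMA -/
theorem neumann (h1 : ‖(1 : 𝔸)‖ ≤ 1) {b : ℂ → 𝔸} (hb : Continuous b) {c : ℂ} {ρ B : ℝ}
    (hρ : 0 < ρ) (hs : ∀ w, w ∉ closedBall c ρ → b w = 0)
    (hs1 : ∀ w, w ∉ ball (0 : ℂ) 1 → b w = 0) (hB : ∀ w, ‖b w‖ ≤ B)
    (hsm : om ρ * B ≤ 1 / 4) :
    ∃ h : ℂ → 𝔸, (∀ z, ‖h z - 1‖ ≤ 1 / 3) ∧ Sol b h := by
  have hB0 : 0 ≤ B := (norm_nonneg _).trans (hB 0)
  have hom := om_nonneg hρ.le
  -- bounds for `cauT (b u)`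
  have hWB : ∀ u : ℂ →ᵇ 𝔸, WB 0 (B * ‖u‖) (fun w => b w * u w) := by
    intro u
    refine WB.of_continuousOn le_rfl (hb.mul u.continuous).continuousOn fun w _ => ?_
    exact (norm_mul_le _ _).trans (mul_le_mul (hB w) (u.norm_coe_le_norm w) (norm_nonneg _) hB0)
  have hloc : ∀ u : ℂ →ᵇ 𝔸, ∀ z, ‖cauT (fun w => b w * u w) z‖ ≤ 1 / 4 * ‖u‖ := by
    intro u z
    have := norm_cauT_le_local (F := fun w => b w * u w) (M := B * ‖u‖) (c := c) hρ
      (fun w _ => (norm_mul_le _ _).trans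
        (mul_le_mul (hB w) (u.norm_coe_le_norm w) (norm_nonneg _) hB0))
      (fun w hw => by simp only [hs w hw, zero_mul]) z
    calc _ ≤ om ρ * (B * ‖u‖) := this
      _ = (om ρ * B) * ‖u‖ := by ring
      _ ≤ 1 / 4 * ‖u‖ := by gcongr
  -- the operator
  let T : (ℂ →ᵇ 𝔸) → (ℂ →ᵇ 𝔸) := fun u =>
    BoundedContinuousFunction.ofNormedAddCommGroup (fun z => 1 - cauT (fun w => b w * u w) z)
      (continuous_const.sub ((hWB u).continuous_cauT le_rfl one_pos)) (1 + 1 / 4 * ‖u‖)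
      (fun z => (norm_sub_le _ _).trans (add_le_add h1 (hloc u z)))
  have hT : ∀ u z, T u z = 1 - cauT (fun w => b w * u w) z := fun u z => rfl
  have hLip : LipschitzWith (1 / 4 : NNReal) T := by
    refine LipschitzWith.of_dist_le_mul fun u v => ?_
    rw [BoundedContinuousFunction.dist_le (by positivity)]
    intro z
    rw [hT, hT, dist_eq_norm, sub_sub_sub_cancel_left]
    rw [← (hWB v).cauT_sub le_rfl one_pos (hWB u)]
    have h3 : cauT (fun w => b w * v w - b w * u w) = cauT (fun w => b w * (v - u) w) := by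
      congr 1
      ext w
      rw [BoundedContinuousFunction.sub_apply, mul_sub]
    rw [h3]
    refine (hloc (v - u) z).trans (le_of_eq ?_)
    rw [dist_comm, dist_eq_norm]
    norm_num
  have hC : ContractingWith (1 / 4 : NNReal) T := by
    refine ⟨?_, hLip⟩
    rw [← NNReal.coe_lt_coe]; norm_num
  obtain ⟨u, hu, -⟩ := hC.exists_fixedPoint (0 : ℂ →ᵇ 𝔸) (edist_ne_top _ _)
  have hu' : ∀ z, u z = 1 - cauT (fun w => b w * u w) z := fun z => by
    conv_lhs => rw [← hu.eq]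
    rfl
  -- the bound
  have hn : ‖u‖ ≤ 4 / 3 := by
    have h5 : ‖u‖ ≤ 1 + 1 / 4 * ‖u‖ := by
      rw [BoundedContinuousFunction.norm_le (by positivity)]
      intro z
      rw [hu' z]
      exact (norm_sub_le _ _).trans (add_le_add h1 (hloc u z))
    linarith
  have hnear : ∀ z, ‖u z - 1‖ ≤ 1 / 3 := by
    intro z
    have h6 : u z - 1 = -cauT (fun w => b w * u w) z := by
      conv_lhs => rw [hu' z]
      abel
    rw [h6, norm_neg]
    have := hloc u z
    linarith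
  refine ⟨u, hnear, u.continuous, fun z => isUnit_of_near ((hnear z).trans_lt (by norm_num)), ?_⟩
  have hcau : WDb univ (cauT (fun w => b w * u w)) (fun w => b w * u w) := by
    refine (wdb_cauT_univ ((hWB u).integrableOn le_rfl one_pos)).congr (fun _ _ => rfl)
      fun w _ => ?_
    by_cases hw : w ∈ ball (0 : ℂ) 1
    · exact indicator_of_mem hw _
    · rw [indicator_of_notMem hw]
      simp only [hs1 w hw, zero_mul]
  have h7 := WDb.sub isOpen_univ (continuousOn_const) continuousOn_const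
    ((hWB u).continuous_cauT le_rfl one_pos).continuousOn
    (hb.mul u.continuous).continuousOn (WDb.const isOpen_univ (1 : 𝔸)) hcau
  exact h7.congr (fun z _ => (hu' z).symm) fun z _ => by simp

/-- constants -/
theorem sol_one : Sol (fun _ => (0 : 𝔸)) fun _ => 1 :=
  ⟨continuous_const, fun _ => isUnit_one, (WDb.const isOpen_univ (1 : 𝔸)).congr
    (fun _ _ => rfl) fun z _ => by simp⟩

end Vale.Agent.P272.FR
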