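import Vale.Agent.P272.FR.Neu
import Vale.Agent.P272.FR.Exp

/-!
# FRAME, patch by patch: the induction over small patches
-/

open MeasureTheory Set Metric Filter Topology

set_option linter.unusedSectionVars false

namespace Vale.Agent.P272.FR

open Vale.Agent.P272.CT

variable {𝔸 : Type*} [NormedRing 𝔸] [NormedAlgebra ℂ 𝔸] [CompleteSpace 𝔸]

/-- a continuous cut-off: `1` on `closedBall c s`, `0` outside `ball c t` -/
noncomputable def cut (c : ℂ) (s t : ℝ) (z : ℂ) : ℝ := max 0 (min 1 ((t - ‖z - c‖) / (t - s)))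

theorem continuous_cut (c : ℂ) (s t : ℝ) : Continuous (cut c s t) := by unfold cut; fun_prop

theorem cut_nonneg (c : ℂ) (s t : ℝ) (z : ℂ) : 0 ≤ cut c s t z := le_max_left _ _

theorem cut_le_one (c : ℂ) (s t : ℝ) (z : ℂ) : cut c s t z ≤ 1 :=
  max_le zero_le_one (min_le_left _ _)

theorem cut_one {c : ℂ} {s t : ℝ} (hst : s < t) {z : ℂ} (hz : ‖z - c‖ ≤ s) : cut c s t z = 1 := by
  unfold cut
  have h : 1 ≤ (t - ‖z - c‖) / (t - s) := by
    rw [le_div_iff₀ (by linarith)]; linarith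
  rw [min_eq_left h, max_eq_right zero_le_one]

theorem cut_zero {c : ℂ} {s t : ℝ} (hst : s < t) {z : ℂ} (hz : t ≤ ‖z - c‖) : cut c s t z = 0 := by
  unfold cut
  have h : (t - ‖z - c‖) / (t - s) ≤ 0 :=
    div_nonpos_of_nonpos_of_nonneg (by linarith) (by linarith)
  exact max_eq_left ((min_le_right _ _).trans h)

theorem norm_inverse_le (h1 : ‖(1 : 𝔸)‖ ≤ 1) {x : 𝔸} (hx : ‖x - 1‖ ≤ 1 / 2) :
    ‖Ring.inverse x‖ ≤ 2 := by
  have hu : IsUnit x := isUnit_of_near (hx.trans_lt (by norm_num))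
  have h2 : x * Ring.inverse x = 1 := Ring.mul_inverse_cancel x hu
  have h3 : Ring.inverse x = 1 - (x - 1) * Ring.inverse x := by
    rw [sub_mul, h2, one_mul]; abel
  have h4 : ‖Ring.inverse x‖ ≤ 1 + 1 / 2 * ‖Ring.inverse x‖ := by
    calc ‖Ring.inverse x‖ = ‖1 - (x - 1) * Ring.inverse x‖ := by rw [← h3]
      _ ≤ ‖(1 : 𝔸)‖ + ‖(x - 1) * Ring.inverse x‖ := norm_sub_le _ _
      _ ≤ 1 + 1 / 2 * ‖Ring.inverse x‖ := by
          refine add_le_add h1 ((norm_mul_le _ _).trans ?_)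
          gcongr
  linarith

/-- ONE PATCH -/
theorem step (h1 : ‖(1 : 𝔸)‖ ≤ 1) {a' a'' : ℂ → 𝔸} (ha' : Continuous a') (ha'' : Continuous a'')
    {A : ℝ} (hA' : ∀ w, ‖a' w‖ ≤ A) (hA'' : ∀ w, ‖a'' w‖ ≤ A)
    (hs' : ∀ w, w ∉ ball (0 : ℂ) 1 → a' w = 0) (hs'' : ∀ w, w ∉ ball (0 : ℂ) 1 → a'' w = 0)
    {c : ℂ} {δ : ℝ} (hδ : 0 < δ) (hsupp : ∀ w, w ∉ closedBall c δ → a'' w = 0)
    (hsm2 : om (2 * δ) * A ≤ 1 / 4) (hsm1 : om δ * (3 * A) ≤ 1 / 4)
    {g' : ℂ → 𝔸} (hg' : Sol a' g') : ∃ g, Sol (fun z => a' z + a'' z) g := by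
  obtain ⟨hgc, hgu, hgw⟩ := hg'
  have hA0 : 0 ≤ A := (norm_nonneg _).trans (hA' 0)
  -- (i) the local solution
  set b1 : ℂ → 𝔸 := fun z => ((cut c (3 / 2 * δ) (2 * δ) z : ℝ) : ℂ) • a' z with hb1
  have hb1c : Continuous b1 :=
    (Complex.continuous_ofReal.comp (continuous_cut _ _ _)).smul ha'
  have hb1n : ∀ w, ‖b1 w‖ ≤ A := by
    intro w
    rw [hb1]
    simp only
    rw [norm_smul, Complex.norm_real, Real.norm_eq_abs, abs_of_nonneg (cut_nonneg _ _ _ _)]
    calc _ ≤ 1 * ‖a' w‖ := by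
          gcongr
          exact cut_le_one _ _ _ _
      _ ≤ A := by rw [one_mul]; exact hA' w
  obtain ⟨F, hF1, hFc, hFu, hFw⟩ := neumann h1 hb1c (c := c) (ρ := 2 * δ) (B := A) (by linarith)
    (fun w hw => by
      rw [mem_closedBall, dist_eq_norm, not_le] at hw
      simp only [hb1]
      rw [cut_zero (by linarith) hw.le]
      simp) (fun w hw => by simp only [hb1, hs' w hw, smul_zero]) hb1n hsm2
  have hFi := continuous_inverse hFc hFu
  -- (ii) `H = F⁻¹ g'` is holomorphic on the ball of radius `3δ/2`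
  set H : ℂ → 𝔸 := fun z => Ring.inverse (F z) * g' z with hH
  have hHc : Continuous H := hFi.mul hgc
  have hHw := wdb_mul isOpen_univ hFi.continuousOn
    (((hFi.mul (hb1c.mul hFc).neg).mul hFi).neg).continuousOn hgc.continuousOn
    ((ha'.mul hgc).neg).continuousOn
    (wdb_inv isOpen_univ hFc.continuousOn ((hb1c.mul hFc).neg).continuousOn hFw
      (fun z _ => hFu z)) hgw
  have hH0 : WDb (ball c (3 / 2 * δ)) H fun _ => 0 := by
    refine (hHw.mono (subset_univ _)).congr (fun _ _ => rfl) fun z hz => ?_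
    have hb : b1 z = a' z := by
      rw [mem_ball, dist_eq_norm] at hz
      simp only [hb1]
      rw [cut_one (by linarith) hz.le]
      simp
    have hFF : F z * Ring.inverse (F z) = 1 := Ring.mul_inverse_cancel _ (hFu z)
    simp only [hb, Pi.neg_apply, Pi.mul_apply]
    have e1 : Ring.inverse (F z) * -(a' z * F z) * Ring.inverse (F z) =
        -(Ring.inverse (F z) * a' z) := by
      rw [mul_neg, neg_mul, mul_assoc, mul_assoc, hFF, mul_one]
    rw [e1, neg_neg]
    noncomm_ring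
  have hHh : DifferentiableOn ℂ H (ball c (3 / 2 * δ)) := hH0.holo isOpen_ball hHc.continuousOn
  have hHu : ∀ z ∈ ball c (3 / 2 * δ), IsUnit (H z) := fun z _ =>
    IsUnit.mul ((hFu z).ringInverse) (hgu z)
  -- (iii) the approximation
  obtain ⟨G, G', hG, hG', hGG', hG'G, hap⟩ := exp_approx (r := δ) (R := 3 / 2 * δ) (by linarith) hHh
    hHu (ε := 1 / 16) (by norm_num)
  -- (iv) the new frame before the last correction
  set g2 : ℂ → 𝔸 := fun z => g' z * G' z with hg2
  have hg2c : Continuous g2 := hgc.mul hG'.continuous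
  have hg2u : ∀ z, IsUnit (g2 z) := fun z =>
    (hgu z).mul ⟨⟨G' z, G z, hG'G z, hGG' z⟩, rfl⟩
  have hg2w : WDb univ g2 fun z => -(a' z * g2 z) := by
    have h5 := wdb_mul isOpen_univ hgc.continuousOn ((ha'.mul hgc).neg).continuousOn
      hG'.continuous.continuousOn continuousOn_const hgw
      (WDb.of_holo isOpen_univ hG'.differentiableOn)
    refine h5.congr (fun _ _ => rfl) fun z _ => ?_
    simp only [hg2, Pi.neg_apply, Pi.mul_apply]
    noncomm_ring
  have hg2n : ∀ z ∈ closedBall c δ, ‖g2 z - 1‖ ≤ 1 / 2 := by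
    intro z hz
    have hFF : F z * Ring.inverse (F z) = 1 := Ring.mul_inverse_cancel _ (hFu z)
    have e1 : g2 z - 1 = F z * (H z * G' z - 1) + (F z - 1) := by
      have : F z * (H z * G' z) = g2 z := by
        simp only [hH, hg2]
        rw [mul_assoc, ← mul_assoc (F z), hFF, one_mul]
      rw [mul_sub, this, mul_one]; abel
    have e2 : ‖F z‖ ≤ 4 / 3 := by
      have : F z = 1 + (F z - 1) := by abel
      rw [this]
      refine (norm_add_le _ _).trans ?_
      have := hF1 z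
      linarith
    rw [e1]
    calc _ ≤ ‖F z * (H z * G' z - 1)‖ + ‖F z - 1‖ := norm_add_le _ _
      _ ≤ 4 / 3 * (1 / 16) + 1 / 3 := by
          refine add_le_add ((norm_mul_le _ _).trans ?_) (hF1 z)
          exact mul_le_mul e2 (hap z hz) (norm_nonneg _) (by norm_num)
      _ ≤ 1 / 2 := by norm_num
  -- the conjugated coefficient
  set b2 : ℂ → 𝔸 := fun z => Ring.inverse (g2 z) * a'' z * g2 z with hb2
  have hg2i := continuous_inverse hg2c hg2u
  have hb2c : Continuous b2 := (hg2i.mul ha'').mul hg2c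
  have hb2s : ∀ w, w ∉ closedBall c δ → b2 w = 0 := by
    intro w hw
    simp only [hb2, hsupp w hw, mul_zero, zero_mul]
  have hb2n : ∀ w, ‖b2 w‖ ≤ 3 * A := by
    intro w
    by_cases hw : w ∈ closedBall c δ
    · have e1 := norm_inverse_le h1 (hg2n w hw)
      have e2 : ‖g2 w‖ ≤ 3 / 2 := by
        have : g2 w = 1 + (g2 w - 1) := by abel
        rw [this]
        refine (norm_add_le _ _).trans ?_
        have := hg2n w hw
        linarith
      calc ‖b2 w‖ ≤ ‖Ring.inverse (g2 w) * a'' w‖ * ‖g2 w‖ := norm_mul_le _ _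
        _ ≤ (2 * A) * (3 / 2) := by
            refine mul_le_mul ((norm_mul_le _ _).trans ?_) e2 (norm_nonneg _) (by positivity)
            exact mul_le_mul e1 (hA'' w) (norm_nonneg _) (by norm_num)
        _ = 3 * A := by ring
    · rw [hb2s w hw, norm_zero]; positivity
  obtain ⟨h, -, hhc, hhu, hhw⟩ := neumann h1 hb2c hδ hb2s
    (fun w hw => by simp only [hb2, hs'' w hw, mul_zero, zero_mul]) hb2n hsm1
  refine ⟨fun z => g2 z * h z, hg2c.mul hhc, fun z => (hg2u z).mul (hhu z), ?_⟩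
  have h6 := wdb_mul isOpen_univ hg2c.continuousOn ((ha'.mul hg2c).neg).continuousOn
    hhc.continuousOn ((hb2c.mul hhc).neg).continuousOn hg2w hhw
  refine h6.congr (fun _ _ => rfl) fun z _ => ?_
  have hgg : g2 z * Ring.inverse (g2 z) = 1 := Ring.mul_inverse_cancel _ (hg2u z)
  simp only [hb2, Pi.neg_apply, Pi.mul_apply]
  have e3 : ∀ x y p q : 𝔸, x * y = 1 → x * -(y * p * x * q) = -(p * (x * q)) := by
    intro x y p q hxy
    calc x * -(y * p * x * q) = -((x * y) * p * x * q) := by noncomm_ring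
      _ = -(p * (x * q)) := by rw [hxy]; noncomm_ring
  rw [e3 _ _ _ _ hgg]
  noncomm_ring

/-- FRAME for a coefficient supported in the unit disc -/
theorem exists_sol (h1 : ‖(1 : 𝔸)‖ ≤ 1) {a : ℂ → 𝔸} (ha : Continuous a)
    (hs : ∀ w, w ∉ ball (0 : ℂ) 1 → a w = 0) : ∃ g, Sol a g := by
  classical
  -- the bound
  obtain ⟨A, hA⟩ : ∃ A : ℝ, ∀ w, ‖a w‖ ≤ A := by
    obtain ⟨A, hA⟩ := (isCompact_closedBall (0 : ℂ) 1).exists_bound_of_continuousOn ha.continuousOn
    refine ⟨max A 0, fun w => ?_⟩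
    by_cases hw : w ∈ ball (0 : ℂ) 1
    · exact (hA w (ball_subset_closedBall hw)).trans (le_max_left _ _)
    · rw [hs w hw, norm_zero]; exact le_max_right _ _
  have hA0 : 0 ≤ A := (norm_nonneg _).trans (hA 0)
  -- the size of the patches
  obtain ⟨δ, hδ, hsm2, hsm1⟩ : ∃ δ : ℝ, 0 < δ ∧ om (2 * δ) * A ≤ 1 / 4 ∧
      om δ * (3 * A) ≤ 1 / 4 := by
    have t1 : Tendsto (fun δ : ℝ => om (2 * δ) * A) (𝓝 0) (𝓝 0) := by
      have h2 : Tendsto (fun δ : ℝ => 2 * δ) (𝓝 0) (𝓝 0) := by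
        have : Continuous (fun δ : ℝ => 2 * δ) := by fun_prop
        simpa using this.tendsto 0
      simpa using (tendsto_om.comp h2).mul_const A
    have t2 : Tendsto (fun δ : ℝ => om δ * (3 * A)) (𝓝 0) (𝓝 0) := by
      simpa using tendsto_om.mul_const (3 * A)
    have e1 : ∀ᶠ δ in 𝓝[>] (0 : ℝ), om (2 * δ) * A < 1 / 4 :=
      (t1.eventually (gt_mem_nhds (by norm_num))).filter_mono nhdsWithin_le_nhds
    have e2 : ∀ᶠ δ in 𝓝[>] (0 : ℝ), om δ * (3 * A) < 1 / 4 :=
      (t2.eventually (gt_mem_nhds (by norm_num))).filter_mono nhdsWithin_le_nhds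
    have e3 : ∀ᶠ δ in 𝓝[>] (0 : ℝ), 0 < δ := eventually_mem_nhdsWithin
    obtain ⟨δ, h3, h4, h5⟩ := (e1.and (e2.and e3)).exists
    exact ⟨δ, h5, h3.le, h4.le⟩
  -- the cut-offs
  set τ : ℂ → ℂ → ℝ := fun c z => cut c (δ / 2) δ z with hτ
  set θ : Finset ℂ → ℂ → ℝ := fun S z => 1 - ∏ c ∈ S, (1 - τ c z) with hθ
  have hτ0 : ∀ c z, 0 ≤ τ c z := fun c z => cut_nonneg _ _ _ _
  have hτ1 : ∀ c z, τ c z ≤ 1 := fun c z => cut_le_one _ _ _ _
  have hp0 : ∀ S z, 0 ≤ ∏ c ∈ S, (1 - τ c z) := fun S z =>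
    Finset.prod_nonneg fun c _ => by linarith [hτ1 c z]
  have hp1 : ∀ S z, ∏ c ∈ S, (1 - τ c z) ≤ 1 := fun S z =>
    Finset.prod_le_one (fun c _ => by linarith [hτ1 c z]) fun c _ => by linarith [hτ0 c z]
  have hθc : ∀ S, Continuous (θ S) := fun S => by
    simp only [hθ]
    refine continuous_const.sub (continuous_finsetProd _ fun c _ => ?_)
    exact continuous_const.sub (continuous_cut _ _ _)
  have key : ∀ S : Finset ℂ, ∃ g, Sol (fun z => ((θ S z : ℝ) : ℂ) • a z) g := by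
    intro S
    induction S using Finset.induction_on with
    | empty =>
      refine ⟨fun _ => 1, ?_⟩
      have : (fun z => ((θ ∅ z : ℝ) : ℂ) • a z) = fun _ => (0 : 𝔸) := by
        ext z; simp [hθ]
      rw [this]
      exact sol_one
    | insert c S hc ih =>
      obtain ⟨g', hg'⟩ := ih
      have hbd : ∀ (s : ℝ) (w : ℂ), 0 ≤ s → s ≤ 1 → ‖((s : ℝ) : ℂ) • a w‖ ≤ A := by
        intro s w hs0 hs1
        rw [norm_smul, Complex.norm_real, Real.norm_eq_abs, abs_of_nonneg hs0]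
        calc s * ‖a w‖ ≤ 1 * ‖a w‖ := by gcongr
          _ ≤ A := by rw [one_mul]; exact hA w
      obtain ⟨g, hg⟩ := step h1 (a' := fun z => ((θ S z : ℝ) : ℂ) • a z)
        (a'' := fun z => ((τ c z * (1 - θ S z) : ℝ) : ℂ) • a z)
        ((Complex.continuous_ofReal.comp (hθc S)).smul ha)
        ((Complex.continuous_ofReal.comp ((continuous_cut _ _ _).mul
          (continuous_const.sub (hθc S)))).smul ha) (A := A)
        (fun w => hbd _ w (by simp only [hθ]; linarith [hp1 S w])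
          (by simp only [hθ]; linarith [hp0 S w]))
        (fun w => by
          have h0 : 0 ≤ 1 - θ S w := by simp only [hθ]; linarith [hp0 S w]
          have h2 : 1 - θ S w ≤ 1 := by simp only [hθ]; linarith [hp1 S w]
          exact hbd _ w (mul_nonneg (hτ0 c w) h0) (mul_le_one₀ (hτ1 c w) h0 h2))
        (fun w hw => by simp only [hs w hw, smul_zero])
        (fun w hw => by simp only [hs w hw, smul_zero]) hδ
        (c := c) (fun w hw => by
          rw [mem_closedBall, dist_eq_norm, not_le] at hw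
          have : τ c w = 0 := cut_zero (by linarith) hw.le
          simp only [this, zero_mul, Complex.ofReal_zero, zero_smul]) hsm2 hsm1 hg'
      refine ⟨g, ?_⟩
      have : (fun z => ((θ (insert c S) z : ℝ) : ℂ) • a z) =
          fun z => ((θ S z : ℝ) : ℂ) • a z + ((τ c z * (1 - θ S z) : ℝ) : ℂ) • a z := by
        ext z
        rw [← add_smul, ← Complex.ofReal_add]
        congr 2
        simp only [hθ, Finset.prod_insert hc]
        ring
      rw [this]
      exact hg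
  -- the cover
  obtain ⟨t, -, ht, hcov⟩ := (isCompact_closedBall (0 : ℂ) 1).finite_cover_balls (half_pos hδ)
  obtain ⟨g, hg⟩ := key ht.toFinset
  refine ⟨g, ?_⟩
  have : a = fun z => ((θ ht.toFinset z : ℝ) : ℂ) • a z := by
    ext z
    by_cases hz : z ∈ ball (0 : ℂ) 1
    · obtain ⟨c, hc, hzc⟩ := mem_iUnion₂.1 (hcov (ball_subset_closedBall hz))
      rw [mem_ball, dist_eq_norm] at hzc
      have h2 : τ c z = 1 := cut_one (by linarith) hzc.le
      have h3 : θ ht.toFinset z = 1 := by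
        simp only [hθ]
        rw [Finset.prod_eq_zero ((ht.mem_toFinset).2 hc) (by rw [h2]; ring)]
        ring
      rw [h3]; simp
    · rw [hs z hz, smul_zero]
  rw [this]
  exact hg

end Vale.Agent.P272.FR
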