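import Vale.Agent.P272.CT.Weak
import Vale.Agent.P272.CT.Calc

/-!
# FRAME, patch by patch (second proof of the gauge theorem): local smallness of the Cauchy transform
-/

open MeasureTheory Set Metric Filter Topology

set_option linter.unusedSectionVars false

namespace Vale.Agent.P272.FR

open Vale.Agent.P272.CT

variable {E : Type*} [NormedAddCommGroup E] [NormedSpace ℂ E]

/-- the local modulus -/
noncomputable def om (ρ : ℝ) : ℝ := (√ρ * cst 0 (3 / 2) + Real.pi * ρ) / Real.pi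

theorem om_nonneg {ρ : ℝ} (hρ : 0 ≤ ρ) : 0 ≤ om ρ := by
  have := cst_nonneg 0 (3 / 2)
  have := Real.pi_pos
  unfold om
  positivity

theorem tendsto_om : Tendsto om (𝓝 0) (𝓝 0) := by
  have h : Continuous om := by unfold om; fun_prop
  have := h.tendsto 0
  simpa [om] using this

theorem norm_cauT_le_local {F : ℂ → E} {M ρ : ℝ} {c : ℂ} (hρ : 0 < ρ)
    (hb : ∀ w ∈ ball (0 : ℂ) 1, ‖F w‖ ≤ M) (h0 : ∀ w, w ∉ closedBall c ρ → F w = 0) (z : ℂ) :
    ‖cauT F z‖ ≤ om ρ * M := by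
  have hpi := Real.pi_pos
  have hM : 0 ≤ M := (norm_nonneg _).trans (hb 0 (mem_ball_self one_pos))
  have hK := integrableOn_kernel (α := 0) (β := 3 / 2) le_rfl (by norm_num) (by norm_num) z
  have hKi := integral_kernel_le (α := 0) (β := 3 / 2) le_rfl (by norm_num) (by norm_num) z
  have hI : Integrable (fun w : ℂ => (closedBall c ρ).indicator (fun _ => (ρ⁻¹ : ℝ)) w) := by
    rw [integrable_indicator_iff isClosed_closedBall.measurableSet]
    exact integrableOn_const (measure_closedBall_lt_top).ne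
  have hIi : ∫ w : ℂ, (closedBall c ρ).indicator (fun _ => (ρ⁻¹ : ℝ)) w = Real.pi * ρ := by
    rw [integral_indicator isClosed_closedBall.measurableSet, setIntegral_const, measureReal_def,
      Complex.volume_closedBall]
    simp only [ENNReal.toReal_mul, ENNReal.toReal_pow, ENNReal.toReal_ofReal hρ.le,
      ENNReal.coe_toReal, NNReal.coe_real_pi, smul_eq_mul]
    field_simp
  have hI1 : ∫ w in ball (0 : ℂ) 1, (closedBall c ρ).indicator (fun _ => (ρ⁻¹ : ℝ)) w ≤
      Real.pi * ρ := by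
    rw [← hIi]
    refine setIntegral_le_integral hI (Eventually.of_forall fun w => ?_)
    exact indicator_nonneg (fun _ _ => by positivity) _
  have hpt : ∀ w ∈ ball (0 : ℂ) 1, ‖(z - w)⁻¹ • F w‖ ≤
      M * (√ρ * ((1 - ‖w‖) ^ (-(0 : ℝ)) * ‖z - w‖ ^ (-(3 / 2 : ℝ))) +
        (closedBall c ρ).indicator (fun _ => (ρ⁻¹ : ℝ)) w) := by
    intro w hw
    have hind : 0 ≤ (closedBall c ρ).indicator (fun _ => (ρ⁻¹ : ℝ)) w :=
      indicator_nonneg (fun _ _ => by positivity) _
    rw [neg_zero, Real.rpow_zero, one_mul]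
    by_cases hwc : w ∈ closedBall c ρ
    · rw [norm_smul, norm_inv, mul_comm]
      refine mul_le_mul (hb w hw) ?_ (by positivity) hM
      rw [indicator_of_mem hwc]
      rcases eq_or_ne z w with hzw | hzw
      · subst hzw
        simp only [sub_self, norm_zero, inv_zero]
        positivity
      have ht : 0 < ‖z - w‖ := norm_pos_iff.2 (sub_ne_zero.2 hzw)
      rcases le_total ρ ‖z - w‖ with h | h
      · have : ‖z - w‖⁻¹ ≤ ρ⁻¹ := inv_anti₀ hρ h
        have : 0 ≤ √ρ * ‖z - w‖ ^ (-(3 / 2 : ℝ)) := by positivity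
        linarith
      · have h1 : ‖z - w‖⁻¹ ≤ √ρ * ‖z - w‖ ^ (-(3 / 2 : ℝ)) := by
          have h2 : ‖z - w‖⁻¹ = ‖z - w‖ ^ (1 / 2 : ℝ) * ‖z - w‖ ^ (-(3 / 2 : ℝ)) := by
            rw [← Real.rpow_add ht, ← Real.rpow_neg_one]; norm_num
          rw [h2, ← Real.sqrt_eq_rpow]
          gcongr
        have : 0 ≤ ρ⁻¹ := by positivity
        linarith
    · rw [h0 w hwc, smul_zero, norm_zero]
      positivity
  have h1 : ‖∫ w in ball (0 : ℂ) 1, (z - w)⁻¹ • F w‖ ≤
      M * (√ρ * cst 0 (3 / 2) + Real.pi * ρ) := by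
    calc ‖∫ w in ball (0 : ℂ) 1, (z - w)⁻¹ • F w‖
        ≤ ∫ w in ball (0 : ℂ) 1, M * (√ρ * ((1 - ‖w‖) ^ (-(0 : ℝ)) *
            ‖z - w‖ ^ (-(3 / 2 : ℝ))) + (closedBall c ρ).indicator (fun _ => (ρ⁻¹ : ℝ)) w) := by
          refine norm_integral_le_of_norm_le
            (((hK.const_mul _).add hI.integrableOn).const_mul _) ?_
          filter_upwards [ae_restrict_mem measurableSet_ball] with w hw
          exact hpt w hw
      _ = M * (√ρ * (∫ w in ball (0 : ℂ) 1, (1 - ‖w‖) ^ (-(0 : ℝ)) *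
            ‖z - w‖ ^ (-(3 / 2 : ℝ))) +
            ∫ w in ball (0 : ℂ) 1, (closedBall c ρ).indicator (fun _ => (ρ⁻¹ : ℝ)) w) := by
          rw [integral_const_mul, integral_add (hK.const_mul _) hI.integrableOn,
            integral_const_mul]
      _ ≤ _ := by gcongr
  rw [cauT, norm_smul, norm_inv, Complex.norm_real, Real.norm_eq_abs, abs_of_pos hpi]
  calc Real.pi⁻¹ * ‖∫ w in ball (0 : ℂ) 1, (z - w)⁻¹ • F w‖
      ≤ Real.pi⁻¹ * (M * (√ρ * cst 0 (3 / 2) + Real.pi * ρ)) := by gcongr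
    _ = _ := by unfold om; field_simp

end Vale.Agent.P272.FR
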